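import Vale.Agent.P284.H894.G.Defs
import Vale.Agent.P272.K.Iface

/-! # P284, theorem K, row K1 (helper287): pulling back a complex structure by a local homeomorphism -/

open scoped Manifold ContDiff Topology ComplexOrder
open Filter Set

noncomputable section

namespace Vale.Agent.P284.H287.K1

open Vale.Agent.P272.K

variable {n : ℕ} {X Z : Type} [TopologicalSpace X] [TopologicalSpace Z] [ChartedSpace (Cm n) X]

/-- the pulled back charts -/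
@[reducible] def pullCS {f : Z → X} (hf : IsLocalHomeomorph f) : ChartedSpace (Cm n) Z where
  atlas := {ε | ∃ s : OpenPartialHomeomorph Z X, (s : Z → X) = f ∧
    ∃ e ∈ atlas (Cm n) X, ε = s ≫ₕ e}
  chartAt ξ := (hf ξ).choose ≫ₕ chartAt (Cm n) (f ξ)
  mem_chart_source ξ := by
    have h := (hf ξ).choose_spec
    rw [OpenPartialHomeomorph.trans_source]
    refine ⟨h.1, ?_⟩
    rw [mem_preimage, ← h.2]
    exact mem_chart_source _ _
  chart_mem_atlas ξ := ⟨(hf ξ).choose, (hf ξ).choose_spec.2.symm, _, chart_mem_atlas _ _, rfl⟩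

variable {f : Z → X} (hf : IsLocalHomeomorph f)

omit [ChartedSpace (Cm n) X] in
lemma trans_eq {s s' : OpenPartialHomeomorph Z X} (hs : (s : Z → X) = f)
    (hs' : (s' : Z → X) = f) (e e' : Chart n X) {z : Cm n} (hz : z ∈ (s ≫ₕ e).target) :
    (s' ≫ₕ e') ((s ≫ₕ e).symm z) = e' (e.symm z) := by
  rw [OpenPartialHomeomorph.trans_target] at hz
  have h1 : s (s.symm (e.symm z)) = e.symm z := s.right_inv hz.2
  show e' (s' (s.symm (e.symm z))) = _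
  rw [hs', ← hs, h1]

lemma pull_isManifold [IsManifold 𝓘(ℂ, Cm n) ω X] :
    @IsManifold ℂ _ (Cm n) _ _ (Cm n) _ 𝓘(ℂ, Cm n) ω Z _ (pullCS hf) := by
  let := pullCS (n := n) hf
  refine isManifold_of_contDiffOn 𝓘(ℂ, Cm n) ω Z ?_
  rintro _ _ ⟨s, hs, e, he, rfl⟩ ⟨s', hs', e', he', rfl⟩
  have h1 := (contDiffGroupoid ω 𝓘(ℂ, Cm n)).compatible he he'
  have h2 := ((mem_groupoid_of_pregroupoid).1 h1).1
  have h3 : ContDiffOn ℂ ω (𝓘(ℂ, Cm n) ∘ (e.symm ≫ₕ e') ∘ (𝓘(ℂ, Cm n)).symm)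
    ((𝓘(ℂ, Cm n)).symm ⁻¹' (e.symm ≫ₕ e').source ∩ range 𝓘(ℂ, Cm n)) := h2
  have h4 : ∀ z ∈ ((s ≫ₕ e).symm ≫ₕ (s' ≫ₕ e')).source,
      z ∈ (e.symm ≫ₕ e').source ∧ ((s ≫ₕ e).symm ≫ₕ (s' ≫ₕ e')) z = (e.symm ≫ₕ e') z := by
    intro z hz
    rw [OpenPartialHomeomorph.trans_source, OpenPartialHomeomorph.symm_source] at hz
    have hz1 : z ∈ (s ≫ₕ e).target := hz.1
    have hz2 : (s ≫ₕ e).symm z ∈ (s' ≫ₕ e').source := hz.2
    rw [OpenPartialHomeomorph.trans_target] at hz1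
    rw [OpenPartialHomeomorph.trans_source] at hz2
    have h5 : s (s.symm (e.symm z)) = e.symm z := s.right_inv hz1.2
    have h6 : s' ((s ≫ₕ e).symm z) = e.symm z := by
      show s' (s.symm (e.symm z)) = _
      rw [hs', ← hs, h5]
    refine ⟨?_, ?_⟩
    · rw [OpenPartialHomeomorph.trans_source, OpenPartialHomeomorph.symm_source]
      refine ⟨hz1.1, ?_⟩
      rw [mem_preimage, ← h6]
      exact hz2.2
    · exact trans_eq hs hs' e e' hz.1
  refine (h3.mono ?_).congr ?_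
  · intro z hz
    exact ⟨(h4 z hz.1).1, hz.2⟩
  · intro z hz
    exact (h4 z hz.1).2

open Classical in
/-- the pulled back metric -/
def pullw (f : Z → X) (w : Chart n X → Cm n → Matrix (Fin n) (Fin n) ℂ) (ε : Chart n Z)
    (z : Cm n) : Matrix (Fin n) (Fin n) ℂ :=
  if h : ∃ e : Chart n X, e ∈ atlas (Cm n) X ∧ ∃ s : OpenPartialHomeomorph Z X,
    (s : Z → X) = f ∧ ε = s ≫ₕ e then w h.choose z else 1

lemma pullw_spec (w : Chart n X → Cm n → Matrix (Fin n) (Fin n) ℂ) {ε : Chart n Z} {ξ : Z}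
    (h : @At n Z _ (pullCS hf) ε ξ) : ∃ (e : Chart n X) (s : OpenPartialHomeomorph Z X),
      (s : Z → X) = f ∧ ε = s ≫ₕ e ∧ At e (f ξ) ∧ ξ ∈ s.source ∧ pullw f w ε = w e := by
  obtain ⟨⟨s₀, hs₀, e₀, he₀, hε₀⟩, hξ⟩ := h
  have hex : ∃ e : Chart n X, e ∈ atlas (Cm n) X ∧ ∃ s : OpenPartialHomeomorph Z X,
    (s : Z → X) = f ∧ ε = s ≫ₕ e := ⟨e₀, he₀, s₀, hs₀, hε₀⟩
  obtain ⟨he, s, hs, hε⟩ := hex.choose_spec
  refine ⟨hex.choose, s, hs, hε, ?_⟩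
  have hξ' : ξ ∈ (s ≫ₕ hex.choose).source := hε ▸ hξ
  rw [OpenPartialHomeomorph.trans_source] at hξ'
  refine ⟨⟨he, ?_⟩, hξ'.1, ?_⟩
  · exact mem_of_eq_of_mem (congrFun hs ξ).symm hξ'.2
  · funext z
    unfold pullw
    rw [dif_pos hex]

omit [ChartedSpace (Cm n) X] in
lemma jacM_pull {s s' : OpenPartialHomeomorph Z X} (hs : (s : Z → X) = f)
    (hs' : (s' : Z → X) = f) (e e' : Chart n X) {ξ : Z} (hξ : ξ ∈ (s ≫ₕ e).source) :
    jacM (s ≫ₕ e) (s' ≫ₕ e') ξ = jacM e e' (f ξ) := by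
  have h0 : (s ≫ₕ e) ξ = e (f ξ) := by
    show e (s ξ) = _
    rw [hs]
  unfold jacM
  rw [h0]
  ext p i
  rw [Matrix.of_apply, Matrix.of_apply]
  unfold dz
  have h1 : (fun z => (s' ≫ₕ e') ((s ≫ₕ e).symm z) p) =ᶠ[𝓝 (e (f ξ))]
      fun z => e' (e.symm z) p := by
    rw [← h0]
    filter_upwards [(s ≫ₕ e).open_target.mem_nhds ((s ≫ₕ e).map_source hξ)] with z hz
    rw [trans_eq hs hs' e e' hz]
  rw [h1.fderiv_eq]

lemma pull_isKahler {w : Chart n X → Cm n → Matrix (Fin n) (Fin n) ℂ} (hw : IsKahler w) :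
    @IsKahler n Z _ (pullCS hf) (pullw f w) := by
  let := pullCS (n := n) hf
  refine ⟨⟨?_, ?_, ?_⟩, ?_⟩
  · intro ε ξ h i j
    obtain ⟨e, s, hs, rfl, hat, -, hpw⟩ := pullw_spec hf w h
    rw [hpw]
    show ContDiffAt ℝ ∞ _ (e (s ξ))
    rw [hs]
    exact hw.smooth e (f ξ) hat i j
  · intro ε ξ h
    obtain ⟨e, s, hs, rfl, hat, -, hpw⟩ := pullw_spec hf w h
    rw [hpw]
    show (w e (e (s ξ))).PosDef
    rw [hs]
    exact hw.posDef e (f ξ) hat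
  · intro ε ε' ξ h h'
    obtain ⟨e, s, hs, rfl, hat, -, hpw⟩ := pullw_spec hf w h
    obtain ⟨e', s', hs', rfl, hat', -, hpw'⟩ := pullw_spec hf w h'
    rw [hpw, hpw', jacM_pull hs hs' e e' h.2]
    show w e (e (s ξ)) = _ * w e' (e' (s' ξ)) * _
    rw [hs, hs']
    exact hw.change e e' (f ξ) hat hat'
  · intro ε ξ h i j k
    obtain ⟨e, s, hs, rfl, hat, -, hpw⟩ := pullw_spec hf w h
    rw [hpw]
    show dz k _ (e (s ξ)) = dz i _ (e (s ξ))
    rw [hs]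
    exact hw.closed e (f ξ) hat i j k

end Vale.Agent.P284.H287.K1
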